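import Mathlib

/-! Convex down-closed bodies in the orthant and the flow `x ↦ x / (1 + s x)`. -/

namespace Vale.P254.U

open MeasureTheory Set

variable {n : ℕ}

/-- A convex body in the orthant which is closed downwards. -/
structure OrthBody (K : Set (Fin n → ℝ)) : Prop where
  compact : IsCompact K
  convex : Convex ℝ K
  nonneg : ∀ x ∈ K, 0 ≤ x
  down : ∀ x ∈ K, ∀ y, 0 ≤ y → y ≤ x → y ∈ K
  int_ne : (interior K).Nonempty

/-- The quadratic lemma at the direction of the reciprocal centroid. -/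
def LemmaQ (n : ℕ) : Prop :=
  ∀ K : Set (Fin n → ℝ), OrthBody K →
    2 * (∫ x in K, (∑ i, x i * (volume.real K / ∫ y in K, y i)) ^ 2)
      + ∑ i, ∫ x in K, (x i * (volume.real K / ∫ y in K, y i)) ^ 2
      ≤ 2 * n * (n + 1) * volume.real K

/-- The flow. -/
noncomputable def phi (s x : Fin n → ℝ) : Fin n → ℝ := fun i => x i / (1 + s i * x i)

/-- The Jacobian of the flow. -/
noncomputable def jac (s x : Fin n → ℝ) : ℝ := ∏ i, ((1 + |s i| * |x i|) ^ 2)⁻¹

theorem jac_nonneg (s x : Fin n → ℝ) : 0 ≤ jac s x :=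
  Finset.prod_nonneg fun i _ => by positivity

theorem continuous_jac : Continuous fun p : (Fin n → ℝ) × (Fin n → ℝ) => jac p.1 p.2 := by
  unfold jac
  refine continuous_finsetProd _ fun i _ => Continuous.inv₀ (by fun_prop) fun p => ?_
  positivity

theorem den_pos {s x : Fin n → ℝ} (hs : 0 ≤ s) (hx : 0 ≤ x) (i : Fin n) :
    0 < 1 + s i * x i := by
  have := mul_nonneg (hs i) (hx i)
  linarith

theorem phi_nonneg {s x : Fin n → ℝ} (hs : 0 ≤ s) (hx : 0 ≤ x) : 0 ≤ phi s x :=
  fun i => div_nonneg (hx i) (den_pos hs hx i).le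

theorem phi_mono {s x y : Fin n → ℝ} (hs : 0 ≤ s) (hx : 0 ≤ x) (hxy : x ≤ y) :
    phi s x ≤ phi s y := by
  intro i
  simp only [phi]
  rw [div_le_div_iff₀ (den_pos hs hx i) (den_pos hs (hx.trans hxy) i)]
  nlinarith [hxy i]

theorem phi_comp {s r x : Fin n → ℝ} (hs : 0 ≤ s) (hx : 0 ≤ x) :
    phi r (phi s x) = phi (s + r) x := by
  funext i
  have h := (den_pos hs hx i).ne'
  simp only [phi, Pi.add_apply]
  rw [← mul_div_assoc, one_add_div h, div_div_div_cancel_right₀ h]
  ring

/-- The inverse of the flow. -/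
noncomputable def psi (s u : Fin n → ℝ) : Fin n → ℝ := fun i => u i / (1 - s i * u i)

theorem psi_phi {s x : Fin n → ℝ} (hs : 0 ≤ s) (hx : 0 ≤ x) : psi s (phi s x) = x := by
  funext i
  have h := (den_pos hs hx i).ne'
  have h2 : 1 - s i * (x i / (1 + s i * x i)) = 1 / (1 + s i * x i) := by
    field_simp; ring
  simp only [psi, phi, h2]
  rw [div_div_div_cancel_right₀ h, div_one]

theorem one_sub_phi_pos {s x : Fin n → ℝ} (hs : 0 ≤ s) (hx : 0 ≤ x) (i : Fin n) :
    0 < 1 - s i * phi s x i := by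
  have h := den_pos hs hx i
  have : 1 - s i * phi s x i = 1 / (1 + s i * x i) := by
    simp only [phi]; field_simp; ring
  rw [this]; positivity

theorem phi_psi {s u : Fin n → ℝ} (hu : ∀ i, 0 < 1 - s i * u i) : phi s (psi s u) = u := by
  funext i
  have h := (hu i).ne'
  have h2 : 1 + s i * (u i / (1 - s i * u i)) = 1 / (1 - s i * u i) := by
    field_simp; ring
  simp only [psi, phi, h2]
  rw [div_div_div_cancel_right₀ h, div_one]

namespace OrthBody

variable {K : Set (Fin n → ℝ)} {s : Fin n → ℝ}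

theorem measurableSet (h : OrthBody K) : MeasurableSet K := h.compact.measurableSet

theorem integrableOn (h : OrthBody K) {f : (Fin n → ℝ) → ℝ} (hf : Continuous f) :
    IntegrableOn f K := hf.continuousOn.integrableOn_compact h.compact

/-- A box inside and a box outside. -/
theorem exists_boxes (h : OrthBody K) : ∃ δ R : ℝ, 0 < δ ∧ δ ≤ R ∧
    Icc (0 : Fin n → ℝ) (fun _ => δ) ⊆ K ∧ K ⊆ Icc 0 (fun _ => R) := by
  obtain ⟨x₀, hx₀⟩ := h.int_ne
  obtain ⟨r, hr, hball⟩ := Metric.mem_nhds_iff.1 (mem_interior_iff_mem_nhds.1 hx₀)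
  obtain ⟨R, hR⟩ := h.compact.isBounded.exists_norm_le
  have hy : (x₀ - fun _ => r / 2) ∈ K := hball <| by
    rw [Metric.mem_ball, dist_eq_norm, sub_sub_cancel_left, norm_neg]
    refine ((pi_norm_le_iff_of_nonneg (by linarith)).2 fun i => ?_).trans_lt (half_lt_self hr)
    rw [Real.norm_eq_abs, abs_of_pos (by linarith)]
  have hge : ∀ i, r / 2 ≤ x₀ i := fun i => by simpa using (h.nonneg _ hy) i
  refine ⟨r / 2, max R (r / 2), by linarith, le_max_right _ _, fun y hy => ?_, fun y hy => ?_⟩
  · exact h.down x₀ (interior_subset hx₀) y hy.1 fun i => (hy.2 i).trans (hge i)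
  · refine ⟨h.nonneg y hy, fun i => (le_max_left R (r / 2)).trans' ?_⟩
    exact (le_abs_self _).trans ((norm_le_pi_norm y i).trans (hR y hy))

theorem volume_pos (h : OrthBody K) : 0 < volume.real K :=
  ENNReal.toReal_pos (Measure.measure_pos_of_nonempty_interior _ h.int_ne).ne'
    h.compact.measure_lt_top.ne

theorem injOn_phi (h : OrthBody K) (hs : 0 ≤ s) : InjOn (phi s) K := fun x hx y hy e => by
  rw [← psi_phi hs (h.nonneg x hx), e, psi_phi hs (h.nonneg y hy)]

theorem image_phi (h : OrthBody K) (hs : 0 ≤ s) : OrthBody (phi s '' K) := by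
  refine ⟨h.compact.image_of_continuousOn ?_, ?_, ?_, ?_, ?_⟩
  · refine continuousOn_pi.2 fun i => ContinuousOn.div (by fun_prop) (by fun_prop) fun x hx => ?_
    exact (den_pos hs (h.nonneg x hx) i).ne'
  · rintro _ ⟨x, hx, rfl⟩ _ ⟨y, hy, rfl⟩ a b ha hb hab
    have hx0 := h.nonneg x hx
    have hy0 := h.nonneg y hy
    set u := a • phi s x + b • phi s y with hu
    have hz : a • x + b • y ∈ K := h.convex hx hy ha hb hab
    have hden : ∀ i, 0 < 1 - s i * u i := fun i => by
      have e : 1 - s i * u i = a * (1 - s i * phi s x i) + b * (1 - s i * phi s y i) := by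
        simp [hu]; linear_combination -hab
      rw [e]
      have h1 := one_sub_phi_pos hs hx0 i
      have h2 := one_sub_phi_pos hs hy0 i
      rcases ha.eq_or_lt with ha' | ha'
      · rw [← ha', zero_add] at hab
        rw [← ha', hab]; linarith
      · have := mul_pos ha' h1
        have := mul_nonneg hb h2.le
        linarith
    have hu0 : 0 ≤ u := add_nonneg (smul_nonneg ha (phi_nonneg hs hx0))
      (smul_nonneg hb (phi_nonneg hs hy0))
    have hle : u ≤ phi s (a • x + b • y) := by
      intro i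
      have hX := den_pos hs hx0 i
      have hY := den_pos hs hy0 i
      have hZ := den_pos hs (h.nonneg _ hz) i
      simp only [hu, phi, Pi.add_apply, Pi.smul_apply, smul_eq_mul] at hZ ⊢
      have key : 0 ≤ a * b * s i * (x i - y i) ^ 2 := by
        have := mul_nonneg (mul_nonneg ha hb) (hs i)
        positivity
      rw [← mul_div_assoc, ← mul_div_assoc, div_add_div _ _ hX.ne' hY.ne',
        div_le_div_iff₀ (mul_pos hX hY) hZ]
      have hb' : b = 1 - a := by linarith
      subst hb'
      linear_combination key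
    have hz0 : 0 ≤ psi s u := fun i => div_nonneg (hu0 i) (hden i).le
    refine ⟨psi s u, h.down _ hz _ hz0 fun i => ?_, phi_psi hden⟩
    have h1 := hle i
    simp only [psi, phi] at h1 ⊢
    have hZ := den_pos hs (h.nonneg _ hz) i
    rw [le_div_iff₀ hZ] at h1
    rw [div_le_iff₀ (hden i)]
    linarith
  · rintro _ ⟨x, hx, rfl⟩
    exact phi_nonneg hs (h.nonneg x hx)
  · rintro _ ⟨x, hx, rfl⟩ u hu0 hux
    have hden : ∀ i, 0 < 1 - s i * u i := fun i =>
      (one_sub_phi_pos hs (h.nonneg x hx) i).trans_le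
        (sub_le_sub_left (mul_le_mul_of_nonneg_left (hux i) (hs i)) _)
    refine ⟨psi s u, h.down x hx _ (fun i => div_nonneg (hu0 i) (hden i).le) fun i => ?_,
      phi_psi hden⟩
    have hX := den_pos hs (h.nonneg x hx) i
    have h1 := hux i
    simp only [phi] at h1
    rw [le_div_iff₀ hX] at h1
    simp only [psi]
    rw [div_le_iff₀ (hden i)]
    linarith
  · obtain ⟨δ, R, hδ, -, hin, -⟩ := h.exists_boxes
    set a : Fin n → ℝ := phi s fun _ => δ with ha
    have hsub : Icc 0 a ⊆ phi s '' K := by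
      intro u hu
      have hden : ∀ i, 0 < 1 - s i * u i := fun i =>
        (one_sub_phi_pos hs (x := fun _ => δ) (fun _ => hδ.le) i).trans_le
          (sub_le_sub_left (mul_le_mul_of_nonneg_left (hu.2 i) (hs i)) _)
      refine ⟨psi s u, hin ⟨fun i => div_nonneg (hu.1 i) (hden i).le, fun i => ?_⟩, phi_psi hden⟩
      have hX := den_pos hs (x := fun _ => δ) (fun _ => hδ.le) i
      have h1 := hu.2 i
      simp only [ha, phi] at h1
      rw [le_div_iff₀ hX] at h1
      simp only [psi]
      rw [div_le_iff₀ (hden i)]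
      linarith
    refine Set.Nonempty.mono (interior_mono hsub) ?_
    rw [← pi_univ_Icc, interior_pi_set finite_univ]
    refine univ_pi_nonempty_iff.2 fun i => ?_
    rw [interior_Icc]
    exact nonempty_Ioo.2 (div_pos hδ (den_pos hs (x := fun _ => δ) (fun _ => hδ.le) i))

theorem image_image (h : OrthBody K) {r : Fin n → ℝ} (hs : 0 ≤ s) :
    phi r '' (phi s '' K) = phi (s + r) '' K := by
  rw [← image_comp]
  exact image_congr fun x hx => phi_comp hs (h.nonneg x hx)

theorem image_zero (_ : OrthBody K) : phi 0 '' K = K := by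
  refine (image_congr fun x _ => ?_).trans (image_id K)
  funext i
  simp [phi]

/-- The change of variables. -/
theorem integral_image (h : OrthBody K) (hs : 0 ≤ s) (g : (Fin n → ℝ) → ℝ) :
    ∫ u in phi s '' K, g u = ∫ x in K, jac s x * g (phi s x) := by
  set D : (Fin n → ℝ) → (Fin n → ℝ) →L[ℝ] (Fin n → ℝ) := fun x =>
    ContinuousLinearMap.pi fun i =>
      ((1 + s i * x i) ^ 2)⁻¹ • ContinuousLinearMap.proj (R := ℝ) (φ := fun _ : Fin n => ℝ) i
    with hD
  have hd : ∀ x ∈ K, HasFDerivWithinAt (phi s) (D x) K x := fun x hx => by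
    refine hasFDerivWithinAt_pi.2 fun i => ?_
    have hne := (den_pos hs (h.nonneg x hx) i).ne'
    have h1 : HasDerivAt (fun t : ℝ => t / (1 + s i * t)) (((1 + s i * x i) ^ 2)⁻¹) (x i) := by
      have := (hasDerivAt_id' (x i)).fun_div
        (((hasDerivAt_id' (x i)).const_mul (s i)).const_add 1) hne
      exact this.congr_deriv (by field_simp; ring)
    have h2 : HasFDerivWithinAt (fun y : Fin n → ℝ => y i)
        (ContinuousLinearMap.proj (R := ℝ) (φ := fun _ : Fin n => ℝ) i) K x :=
      (hasFDerivAt_apply (𝕜 := ℝ) i x).hasFDerivWithinAt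
    exact h1.comp_hasFDerivWithinAt x h2
  have hdet : ∀ x ∈ K, |(D x).det| = jac s x := fun x hx => by
    have : LinearMap.toMatrix' ((D x : (Fin n → ℝ) →L[ℝ] (Fin n → ℝ)) :
        (Fin n → ℝ) →ₗ[ℝ] (Fin n → ℝ))
        = Matrix.diagonal fun i => ((1 + s i * x i) ^ 2)⁻¹ := by
      ext i j
      rcases eq_or_ne i j with rfl | hij
      · simp [hD, LinearMap.toMatrix'_apply]
      · simp [hD, LinearMap.toMatrix'_apply, hij]
    rw [ContinuousLinearMap.det, ← LinearMap.det_toMatrix', this, Matrix.det_diagonal,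
      abs_of_nonneg (Finset.prod_nonneg fun i _ => by positivity), jac]
    exact Finset.prod_congr rfl fun i _ => by
      rw [abs_of_nonneg (hs i), abs_of_nonneg (h.nonneg x hx i)]
  rw [integral_image_eq_integral_abs_det_fderiv_smul volume h.measurableSet hd (h.injOn_phi hs)]
  exact setIntegral_congr_fun h.measurableSet fun x hx => by rw [hdet x hx, smul_eq_mul]

end OrthBody

end Vale.P254.U
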