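import Mathlib
import Vale.Agent.P254.U.Orth

/-! Lemma Q implies that the cube is extremal for the product of the first moments. -/

namespace Vale.P254.U

open MeasureTheory Set

variable {n : ℕ}

/-- The first moments. -/
noncomputable def fmom (K : Set (Fin n → ℝ)) (j : Fin n) : ℝ := ∫ x in K, x j

/-- The logarithm of `V^(n+1) / ∏ m_j`. -/
noncomputable def gfun (K : Set (Fin n → ℝ)) : ℝ :=
  (n + 1) * Real.log (volume.real K) - ∑ j, Real.log (fmom K j)

theorem box_moment (a : Fin n → ℝ) (ha : 0 ≤ a) (j : Fin n) :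
    ∫ x in Icc 0 a, x j = (∏ i, a i) * (a j / 2) := by
  rw [← pi_univ_Icc, volume_pi, Measure.restrict_pi_pi]
  have e : (fun x : Fin n → ℝ => x j) = fun x => ∏ i, (if i = j then x i else 1) := by
    funext x; simp
  rw [e, integral_fintype_prod_eq_prod (fun i t => if i = j then t else (1 : ℝ)),
    ← Finset.mul_prod_erase _ a (Finset.mem_univ j),
    ← Finset.mul_prod_erase _ _ (Finset.mem_univ j)]
  rw [Finset.prod_congr rfl (g := a) fun i hi => ?_]
  · have : ∫ t in Icc (0 : ℝ) (a j), t = a j ^ 2 / 2 := by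
      have hj : (0 : ℝ) ≤ a j := ha j
      rw [integral_Icc_eq_integral_Ioc, ← intervalIntegral.integral_of_le hj, integral_id]
      ring
    simp only [Pi.zero_apply, if_true]
    rw [this]
    ring
  · have hi0 : (0 : ℝ) ≤ a i := ha i
    simp [Finset.ne_of_mem_erase hi, hi0]

theorem box_volume (a : Fin n → ℝ) (ha : 0 ≤ a) :
    volume.real (Icc (0 : Fin n → ℝ) a) = ∏ i, a i := by
  rw [measureReal_def, Real.volume_Icc_pi_toReal ha]
  simp

theorem one_add_sum_le_prod {ι : Type*} (u : Finset ι) (z : ι → ℝ) (hz : ∀ i, 0 ≤ z i) :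
    1 + ∑ i ∈ u, z i ≤ ∏ i ∈ u, (1 + z i) := by
  classical
  induction u using Finset.induction_on with
  | empty => simp
  | insert a u ha ih =>
    rw [Finset.sum_insert ha, Finset.prod_insert ha]
    nlinarith [mul_le_mul_of_nonneg_left ih (by linarith [hz a] : (0 : ℝ) ≤ 1 + z a),
      mul_nonneg (hz a) (Finset.sum_nonneg fun i (_ : i ∈ u) => hz i)]

namespace OrthBody

variable {K : Set (Fin n → ℝ)} {s : Fin n → ℝ}

theorem fmom_pos (h : OrthBody K) (j : Fin n) : 0 < fmom K j := by
  obtain ⟨δ, R, hδ, -, hin, -⟩ := h.exists_boxes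
  refine lt_of_lt_of_le ?_ (setIntegral_mono_set (h.integrableOn (continuous_apply j))
    (ae_restrict_of_forall_mem h.measurableSet fun x hx => h.nonneg x hx j) hin.eventuallyLE)
  rw [box_moment _ (fun _ => hδ.le)]
  exact mul_pos (Finset.prod_pos fun _ _ => hδ) (by linarith)

theorem volume_image (h : OrthBody K) (hs : 0 ≤ s) :
    volume.real (phi s '' K) = ∫ x in K, jac s x := by
  simpa using h.integral_image hs fun _ => (1 : ℝ)

theorem fmom_image (h : OrthBody K) (hs : 0 ≤ s) (j : Fin n) :
    fmom (phi s '' K) j = ∫ x in K, jac s x * (|x j| / (1 + |s j| * |x j|)) := by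
  rw [fmom, h.integral_image hs fun u => u j]
  refine setIntegral_congr_fun h.measurableSet fun x hx => ?_
  simp only [phi]
  rw [abs_of_nonneg (hs j), abs_of_nonneg (h.nonneg x hx j)]

theorem continuousOn_gfun (h : OrthBody K) :
    ContinuousOn (fun s => gfun (phi s '' K)) (Ici 0) := by
  have h1 : Continuous fun s => ∫ x in K, jac s x :=
    continuous_parametric_integral_of_continuous (f := fun s x => jac s x) continuous_jac h.compact
  have h2 : ∀ j, Continuous fun s => ∫ x in K, jac s x * (|x j| / (1 + |s j| * |x j|)) := fun j =>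
    continuous_parametric_integral_of_continuous
      (f := fun s x => jac s x * (|x j| / (1 + |s j| * |x j|)))
      (continuous_jac.mul (Continuous.div (by fun_prop) (by fun_prop) fun p => by positivity))
      h.compact
  simp only [gfun]
  refine ContinuousOn.sub (continuousOn_const.mul (ContinuousOn.log ?_ fun s hs => ?_))
    (continuousOn_finsetSum _ fun j _ => ContinuousOn.log ?_ fun s hs => ?_)
  · exact h1.continuousOn.congr fun s hs => h.volume_image hs
  · exact (h.image_phi hs).volume_pos.ne'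
  · exact (h2 j).continuousOn.congr fun s hs => h.fmom_image hs j
  · exact ((h.image_phi hs).fmom_pos j).ne'

theorem step_vol (h : OrthBody K) {c : Fin n → ℝ} (hc0 : ∀ i, 0 < c i)
    (hsum : ∫ x in K, ∑ i, x i * c i = n * volume.real K) {t : ℝ} (ht : 0 ≤ t) :
    Real.log (volume.real (phi (fun i => t * c i) '' K)) ≤ Real.log (volume.real K) - 2 * n * t
      + t ^ 2 * (∫ x in K, (2 * ∑ i, x i * c i) ^ 2) / volume.real K := by
  set V := volume.real K with hV
  set D := ∫ x in K, (2 * ∑ i, x i * c i) ^ 2 with hD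
  have hV0 : 0 < V := h.volume_pos
  have hs : (0 : Fin n → ℝ) ≤ fun i => t * c i := fun i => mul_nonneg ht (hc0 i).le
  set K' := phi (fun i => t * c i) '' K with hK'
  have hK'b := h.image_phi hs
  have hjac : ∀ x ∈ K, jac (fun i => t * c i) x = ((∏ i, (1 + t * c i * x i)) ^ 2)⁻¹ := by
    intro x hx
    rw [jac, ← Finset.prod_pow, ← Finset.prod_inv_distrib]
    refine Finset.prod_congr rfl fun i _ => ?_
    rw [abs_of_nonneg (h.nonneg x hx i), abs_of_nonneg (hs i)]
  have hpt : ∀ x ∈ K, jac (fun i => t * c i) x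
      ≤ 1 - t * (2 * ∑ i, x i * c i) + t ^ 2 * (2 * ∑ i, x i * c i) ^ 2 := by
    intro x hx
    rw [hjac x hx]
    have hz : ∀ i, 0 ≤ t * c i * x i := fun i => mul_nonneg (hs i) (h.nonneg x hx i)
    have hp : 1 + ∑ i, t * c i * x i ≤ ∏ i, (1 + t * c i * x i) :=
      one_add_sum_le_prod _ _ hz
    set u := t * (2 * ∑ i, x i * c i) with hu
    have hu' : u = 2 * ∑ i, t * c i * x i := by
      rw [hu, Finset.mul_sum, Finset.mul_sum, Finset.mul_sum]
      exact Finset.sum_congr rfl fun i _ => by ring
    have hu0 : 0 ≤ u := by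
      rw [hu']; exact mul_nonneg zero_le_two (Finset.sum_nonneg fun i _ => hz i)
    have h1 : 1 + u ≤ (∏ i, (1 + t * c i * x i)) ^ 2 := by
      refine le_trans ?_ (pow_le_pow_left₀ ?_ hp 2)
      · nlinarith
      · linarith
    rw [← mul_pow]
    refine (inv_anti₀ (by linarith) h1).trans ?_
    rw [← hu, inv_le_iff_one_le_mul₀' (by linarith : (0 : ℝ) < 1 + u)]
    nlinarith [pow_nonneg hu0 3]
  have hle : volume.real K' ≤ V - 2 * n * V * t + t ^ 2 * D := by
    rw [hK', h.volume_image hs]
    refine (setIntegral_mono_on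
      (h.integrableOn (continuous_jac.comp (continuous_const.prodMk continuous_id)))
      (h.integrableOn (by fun_prop)) h.measurableSet hpt).trans (le_of_eq ?_)
    rw [integral_add (h.integrableOn (by fun_prop)) (h.integrableOn (by fun_prop)),
      integral_sub (h.integrableOn (by fun_prop)) (h.integrableOn (by fun_prop)),
      integral_const_mul, integral_const_mul, integral_const_mul, hsum]
    simp [hD, hV]
    ring
  have hp := hK'b.volume_pos
  have := Real.log_le_sub_one_of_pos (div_pos hp hV0)
  rw [Real.log_div hp.ne' hV0.ne'] at this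
  have h2 : volume.real K' / V ≤ 1 - 2 * n * t + t ^ 2 * D / V := by
    rw [div_le_iff₀ hV0]
    calc volume.real K' ≤ V - 2 * n * V * t + t ^ 2 * D := hle
      _ = _ := by field_simp
  linarith

theorem step_mom (h : OrthBody K) {c : Fin n → ℝ} (hc0 : ∀ i, 0 < c i) {t : ℝ} (ht : 0 ≤ t)
    (j : Fin n) :
    fmom K j - t * (2 * (∫ x in K, x j * ∑ i, x i * c i) + ∫ x in K, x j * (x j * c j))
      ≤ fmom (phi (fun i => t * c i) '' K) j := by
  have hs : (0 : Fin n → ℝ) ≤ fun i => t * c i := fun i => mul_nonneg ht (hc0 i).le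
  have hjac : ∀ x ∈ K, jac (fun i => t * c i) x = ((∏ i, (1 + t * c i * x i)) ^ 2)⁻¹ := by
    intro x hx
    rw [jac, ← Finset.prod_pow, ← Finset.prod_inv_distrib]
    refine Finset.prod_congr rfl fun i _ => ?_
    rw [abs_of_nonneg (h.nonneg x hx i), abs_of_nonneg (hs i)]
  have hpt : ∀ x ∈ K, x j - t * (2 * (x j * ∑ i, x i * c i) + x j * (x j * c j))
      ≤ jac (fun i => t * c i) x * (|x j| / (1 + |t * c j| * |x j|)) := by
    intro x hx
    rw [hjac x hx, abs_of_nonneg (h.nonneg x hx j), abs_of_nonneg (hs j)]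
    have hz : ∀ i, 0 ≤ t * c i * x i := fun i => mul_nonneg (hs i) (h.nonneg x hx i)
    set P := (∏ i, (1 + t * c i * x i)) ^ 2 * (1 + t * c j * x j) with hP
    set S := 2 * ∑ i, t * c i * x i + t * c j * x j with hS
    have hP0 : 0 < P := mul_pos (pow_pos (Finset.prod_pos fun i _ => by linarith [hz i]) 2)
      (by linarith [hz j])
    have hPS : P ≤ Real.exp S := by
      rw [hP, hS, Real.exp_add, two_mul, Real.exp_add, ← sq]
      refine mul_le_mul (pow_le_pow_left₀ (Finset.prod_nonneg fun i _ => by linarith [hz i]) ?_ 2)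
        (by linarith [Real.add_one_le_exp (t * c j * x j)]) (by linarith [hz j]) (by positivity)
      rw [Real.exp_sum]
      exact Finset.prod_le_prod (fun i _ => by linarith [hz i])
        fun i _ => by linarith [Real.add_one_le_exp (t * c i * x i)]
    have h1 : 1 - S ≤ P⁻¹ := by
      refine le_trans ?_ (inv_anti₀ hP0 hPS)
      rw [← Real.exp_neg]
      linarith [Real.add_one_le_exp (-S)]
    have h2 := mul_le_mul_of_nonneg_left h1 (h.nonneg x hx j)
    refine (le_of_eq ?_).trans (h2.trans (le_of_eq ?_))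
    · rw [hS]
      have e : ∑ i, t * c i * x i = t * ∑ i, x i * c i := by
        rw [Finset.mul_sum]
        exact Finset.sum_congr rfl fun i _ => by ring
      rw [e]
      ring
    · rw [hP, mul_inv]
      ring
  rw [h.fmom_image hs j]
  refine (le_of_eq ?_).trans (setIntegral_mono_on (h.integrableOn (by fun_prop))
    (h.integrableOn (Continuous.mul (continuous_jac.comp (continuous_const.prodMk continuous_id))
      (Continuous.div (by fun_prop) (by fun_prop) fun x => by positivity))) h.measurableSet hpt)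
  rw [integral_sub (h.integrableOn (by fun_prop)) (h.integrableOn (by fun_prop)),
    integral_const_mul, integral_add (h.integrableOn (by fun_prop))
    (h.integrableOn (by fun_prop)), integral_const_mul, fmom]

/-- One step of the flow at any body raises `gfun` by at most a second order term. -/
theorem step (h : OrthBody K) (hQ : LemmaQ n) :
    ∃ C t₀ : ℝ, 0 < t₀ ∧ 0 ≤ C ∧ ∀ t, 0 ≤ t → t ≤ t₀ →
      gfun (phi (fun i => t * (volume.real K / fmom K i)) '' K) ≤ gfun K + C * t ^ 2 := by
  set V := volume.real K with hV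
  set c : Fin n → ℝ := fun i => V / fmom K i with hc
  have hV0 : 0 < V := h.volume_pos
  have hm : ∀ i, 0 < fmom K i := h.fmom_pos
  have hc0 : ∀ i, 0 < c i := fun i => div_pos hV0 (hm i)
  set A : Fin n → ℝ := fun j =>
    2 * ∫ x in K, x j * ∑ i, x i * c i with hA
  set B : Fin n → ℝ := fun j => ∫ x in K, x j * (x j * c j) with hB
  set α : Fin n → ℝ := fun j => (A j + B j) / fmom K j with hα
  set D := ∫ x in K, (2 * ∑ i, x i * c i) ^ 2 with hD
  have hα0 : ∀ j, 0 ≤ α j := fun j => by
    refine div_nonneg (add_nonneg (mul_nonneg zero_le_two ?_) ?_) (hm j).le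
    · exact setIntegral_nonneg h.measurableSet fun x hx => mul_nonneg (h.nonneg x hx j)
        (Finset.sum_nonneg fun i _ => mul_nonneg (h.nonneg x hx i) (hc0 i).le)
    · exact setIntegral_nonneg h.measurableSet fun x hx => mul_nonneg (h.nonneg x hx j)
        (mul_nonneg (h.nonneg x hx j) (hc0 j).le)
  have hD0 : 0 ≤ D := setIntegral_nonneg h.measurableSet fun x _ => sq_nonneg _
  have hsum : ∫ x in K, ∑ i, x i * c i = n * V := by
    rw [integral_finsetSum _ fun i _ => h.integrableOn (by fun_prop)]
    have : ∀ i, ∫ x in K, x i * c i = V := fun i => by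
      rw [integral_mul_const]
      show fmom K i * (V / fmom K i) = V
      field_simp [(hm i).ne']
    simp [this]
  -- the consequence of the quadratic lemma
  have hQ' : ∑ j, α j ≤ 2 * n * (n + 1) := by
    have hq : 2 * (∫ x in K, (∑ i, x i * c i) ^ 2) + ∑ i, ∫ x in K, (x i * c i) ^ 2
        ≤ 2 * n * (n + 1) * V := hQ K h
    have e1 : ∫ x in K, (∑ i, x i * c i) ^ 2 = ∑ j, c j * ∫ x in K, x j * ∑ i, x i * c i := by
      simp only [← integral_const_mul]
      rw [← integral_finsetSum _ fun j _ => h.integrableOn (by fun_prop)]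
      refine setIntegral_congr_fun h.measurableSet fun x _ => ?_
      rw [sq, Finset.sum_mul]
      exact Finset.sum_congr rfl fun j _ => by ring
    have e2 : ∀ j, ∫ x in K, (x j * c j) ^ 2 = c j * B j := fun j => by
      rw [hB, ← integral_const_mul]
      exact setIntegral_congr_fun h.measurableSet fun x _ => by ring
    have e3 : ∀ j, α j * V = c j * (A j + B j) := fun j => by
      simp only [hα, hc]
      ring
    rw [← mul_le_mul_iff_of_pos_right hV0, Finset.sum_mul]
    refine le_trans (le_of_eq ?_) hq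
    rw [e1, Finset.mul_sum, ← Finset.sum_add_distrib]
    refine Finset.sum_congr rfl fun j _ => ?_
    rw [e3, e2]
    simp only [hA]
    ring
  set α₁ := ∑ j, α j with hα₁
  refine ⟨(n + 1) * D / V + 2 * ∑ j, α j ^ 2, 1 / (2 * (α₁ + 1)), ?_, ?_, fun t ht ht₀ => ?_⟩
  · have := Finset.sum_nonneg fun j (_ : j ∈ Finset.univ) => hα0 j
    positivity
  · have := Finset.sum_nonneg fun j (_ : j ∈ Finset.univ) => sq_nonneg (α j)
    positivity
  have hs : (0 : Fin n → ℝ) ≤ fun i => t * c i := fun i => mul_nonneg ht (hc0 i).le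
  change gfun (phi (fun i => t * c i) '' K) ≤ _
  set K' := phi (fun i => t * c i) '' K with hK'
  have hK'b := h.image_phi hs
  -- the volume
  have hvol : Real.log (volume.real K') ≤ Real.log V - 2 * n * t + t ^ 2 * D / V :=
    h.step_vol hc0 hsum ht
  -- the moments
  have hmom : ∀ j, Real.log (fmom K j) - (t * α j + 2 * (t * α j) ^ 2)
      ≤ Real.log (fmom K' j) := by
    intro j
    have hle : fmom K j * (1 - t * α j) ≤ fmom K' j := by
      refine (le_of_eq ?_).trans (h.step_mom hc0 ht j)
      show fmom K j * (1 - t * α j) = fmom K j - t * (A j + B j)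
      simp only [hα]
      field_simp [(hm j).ne']
    set w := t * α j with hw
    have hw0 : 0 ≤ w := mul_nonneg ht (hα0 j)
    have hw1 : w ≤ 1 / 2 := by
      have h1 : α j ≤ α₁ + 1 :=
        (Finset.single_le_sum (fun i _ => hα0 i) (Finset.mem_univ j)).trans (by linarith)
      calc w ≤ t * (α₁ + 1) := mul_le_mul_of_nonneg_left h1 ht
        _ ≤ 1 / (2 * (α₁ + 1)) * (α₁ + 1) := mul_le_mul_of_nonneg_right ht₀ (by linarith [hα0 j])
        _ = 1 / 2 := by
          have : α₁ + 1 ≠ 0 :=
            (add_pos_of_nonneg_of_pos (Finset.sum_nonneg fun i _ => hα0 i) one_pos).ne'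
          field_simp
    have hpos : 0 < 1 - w := by linarith
    have h1 := Real.log_le_log (mul_pos (hm j) hpos) hle
    rw [Real.log_mul (hm j).ne' hpos.ne'] at h1
    have h2 := Real.one_sub_inv_le_log_of_pos hpos
    have h3 : (1 - w)⁻¹ ≤ 1 + w + 2 * w ^ 2 := by
      rw [inv_le_iff_one_le_mul₀' hpos]
      nlinarith [mul_nonneg (sq_nonneg w) (by linarith : (0 : ℝ) ≤ 1 - 2 * w)]
    linarith
  have hmom' := Finset.sum_le_sum fun j (_ : j ∈ Finset.univ) => hmom j
  rw [Finset.sum_sub_distrib, Finset.sum_add_distrib, ← Finset.mul_sum, ← Finset.mul_sum] at hmom'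
  simp only [mul_pow, ← Finset.mul_sum] at hmom'
  simp only [gfun, ← hV]
  have h1 := mul_le_mul_of_nonneg_left hvol (show (0 : ℝ) ≤ n + 1 by positivity)
  have h2 := mul_le_mul_of_nonneg_left hQ' ht
  linear_combination h1 + h2 + hmom'

/-- Lower and upper bounds for the centroid of an image. -/
theorem image_bounds (h : OrthBody K) {δ R : ℝ} (hδ : 0 < δ) (_hδR : δ ≤ R)
    (hin : Icc (0 : Fin n → ℝ) (fun _ => δ) ⊆ K) (hout : K ⊆ Icc 0 (fun _ => R)) (hs : 0 ≤ s) :
    ∀ a A : Fin n → ℝ, a = phi s (fun _ => δ) → A = phi s (fun _ => R) →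
      Icc 0 a ⊆ phi s '' K ∧ phi s '' K ⊆ Icc 0 A := by
  rintro a A rfl rfl
  refine ⟨fun u hu => ?_, ?_⟩
  · have hb := h.image_phi hs
    refine hb.down _ ⟨_, hin ⟨fun _ => hδ.le, le_rfl⟩, rfl⟩ u hu.1 hu.2
  · rintro _ ⟨x, hx, rfl⟩
    exact ⟨phi_nonneg hs (h.nonneg x hx), phi_mono hs (h.nonneg x hx) (hout hx).2⟩

theorem flow_bounds (h : OrthBody K) {δ R : ℝ} (hδ : 0 < δ) (hδR : δ ≤ R)
    (hin : Icc (0 : Fin n → ℝ) (fun _ => δ) ⊆ K) (hout : K ⊆ Icc 0 (fun _ => R)) (hs : 0 ≤ s) :
    let a := phi s fun _ => δ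
    let A := phi s fun _ => R
    (∏ i, a i) ≤ volume.real (phi s '' K) ∧ volume.real (phi s '' K) ≤ ∏ i, A i ∧
      ∀ j, (∏ i, a i) * (a j / 2) ≤ fmom (phi s '' K) j ∧
        fmom (phi s '' K) j ≤ (∏ i, A i) * (A j / 2) ∧
        fmom (phi s '' K) j ≤ A j * volume.real (phi s '' K) := by
  intro a A
  obtain ⟨h1, h2⟩ := h.image_bounds hδ hδR hin hout hs a A rfl rfl
  have hb := h.image_phi hs
  have ha : 0 ≤ a := phi_nonneg hs fun _ => hδ.le
  have hA : 0 ≤ A := phi_nonneg hs fun _ => (hδ.trans_le hδR).le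
  have hAm : volume (Icc 0 A) ≠ ⊤ := isCompact_Icc.measure_lt_top.ne
  refine ⟨?_, ?_, fun j => ⟨?_, ?_, ?_⟩⟩
  · rw [← box_volume a ha]
    exact measureReal_mono h1 hb.compact.measure_lt_top.ne
  · rw [← box_volume A hA]
    exact measureReal_mono h2 hAm
  · rw [← box_moment a ha]
    exact setIntegral_mono_set (hb.integrableOn (continuous_apply j))
      (ae_restrict_of_forall_mem hb.measurableSet fun x hx => hb.nonneg x hx j) h1.eventuallyLE
  · rw [← box_moment A hA]
    exact setIntegral_mono_set ((continuous_apply j).continuousOn.integrableOn_compact isCompact_Icc)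
      (ae_restrict_of_forall_mem measurableSet_Icc fun x hx => hx.1 j) h2.eventuallyLE
  · rw [mul_comm]
    refine (setIntegral_mono_on (hb.integrableOn (continuous_apply j))
      (hb.integrableOn (continuous_const (y := A j))) hb.measurableSet fun x hx => (h2 hx).2 j).trans
      (le_of_eq ?_)
    simp

/-- Lemma Q implies the cube inequality for the first moments. -/
theorem gfun_ge (h : OrthBody K) (hQ : LemmaQ n) : n * Real.log 2 ≤ gfun K := by
  obtain ⟨δ, R, hδ, hδR, hin, hout⟩ := h.exists_boxes
  have hR : 0 < R := hδ.trans_le hδR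
  refine le_of_forall_pos_le_add fun η hη => ?_
  set N : ℝ := 2 * (n + 1) * (n + 1) / (δ * η) + 1 with hN
  have hN1 : 1 ≤ N := le_add_of_nonneg_left (by positivity)
  set M : ℝ := Real.log (1 + R * N) with hM
  have hM0 : 0 < M := Real.log_pos (by nlinarith)
  set ε : ℝ := η / (2 * M) with hε
  have hε0 : 0 < ε := by positivity
  set Λ : ℝ := 2 * (R / δ) ^ (n + 1) with hΛ
  have hΛ1 : 1 ≤ Λ := by
    have := one_le_pow₀ (M₀ := ℝ) ((one_le_div hδ).2 hδR) (n := n + 1)
    linarith
  set B : ℝ := Real.exp (2 * Λ * M) / R with hB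
  set box : Set (ℝ × (Fin n → ℝ)) := Icc 0 M ×ˢ Icc 0 (fun _ => B) with hbox
  set σ : (Fin n → ℝ) → Fin n → ℝ := fun s i => Real.log (1 + R * |s i|) with hσ
  set T : Set (ℝ × (Fin n → ℝ)) := box ∩ ((fun p => ((fun i => σ p.2 i - p.1),
      (fun i => 2 * Λ * p.1 - σ p.2 i), gfun K + ε * p.1 - gfun (phi p.2 '' K))) ⁻¹'
        (Ici (0 : Fin n → ℝ) ×ˢ (Ici (0 : Fin n → ℝ) ×ˢ Ici (0 : ℝ)))) with hT
  have hTc : IsCompact T := by
    refine (isCompact_Icc.prod isCompact_Icc).of_isClosed_subset ?_ inter_subset_left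
    have hσc : Continuous σ := continuous_pi fun i => Continuous.log (by fun_prop) fun s => by
      positivity
    refine ContinuousOn.preimage_isClosed_of_isClosed ?_ (isClosed_Icc.prod isClosed_Icc)
      (isClosed_Ici.prod (isClosed_Ici.prod isClosed_Ici))
    refine ContinuousOn.prodMk (Continuous.continuousOn (by fun_prop))
      (ContinuousOn.prodMk (Continuous.continuousOn (by fun_prop)) ?_)
    refine ContinuousOn.sub (Continuous.continuousOn (by fun_prop)) ?_
    exact h.continuousOn_gfun.comp continuous_snd.continuousOn fun p hp => (hp.2).1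
  have hTne : ((0 : ℝ), (0 : Fin n → ℝ)) ∈ T := by
    refine ⟨⟨⟨le_rfl, hM0.le⟩, le_rfl, fun i => ?_⟩, ?_⟩
    · simp only [Pi.zero_apply, hB]; positivity
    · simp [hσ, h.image_zero, Pi.le_def]
  obtain ⟨⟨τ, s⟩, hmem, hmax⟩ := hTc.exists_isMaxOn ⟨_, hTne⟩ continuous_fst.continuousOn
  obtain ⟨⟨hτ, hsB⟩, hlo', hup', hg'⟩ := hmem
  have hs : 0 ≤ s := hsB.1
  have hlo : ∀ i, τ ≤ Real.log (1 + R * s i) := fun i => by
    have := hlo' i; simp [hσ, abs_of_nonneg (hs i)] at this; linarith
  have hup : ∀ i, Real.log (1 + R * s i) ≤ 2 * Λ * τ := fun i => by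
    have := hup' i; simp [hσ, abs_of_nonneg (hs i)] at this; linarith
  have hg : gfun (phi s '' K) ≤ gfun K + ε * τ := by
    simp only [mem_Ici] at hg'; linarith
  -- the maximiser sits at the end
  have hτM : τ = M := by
    by_contra hne
    have hlt : τ < M := lt_of_le_of_ne hτ.2 hne
    set K₁ := phi s '' K with hK₁
    have hb := h.image_phi hs
    obtain ⟨C, t₀, ht₀, hC, hstep⟩ := hb.step hQ
    obtain ⟨hVl, hVu, hmj⟩ := h.flow_bounds hδ hδR hin hout hs
    set t := min (min t₀ 1) (min (2 * (M - τ)) (ε / (2 * (C + 1)))) with ht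
    have ht0 : 0 < t := lt_min (lt_min ht₀ one_pos) (lt_min (by linarith) (by positivity))
    have ht1 : t ≤ 1 := (min_le_left _ _).trans (min_le_right _ _)
    have ht2 : t ≤ 2 * (M - τ) := (min_le_right _ _).trans (min_le_left _ _)
    have ht3 : t * (2 * (C + 1)) ≤ ε :=
      (le_div_iff₀ (by positivity)).1 ((min_le_right _ _).trans (min_le_right _ _))
    have hg1 := hstep t ht0.le ((min_le_left _ _).trans (min_le_left _ _))
    set r : Fin n → ℝ := fun i => t * (volume.real K₁ / fmom K₁ i) with hr
    have hr0 : 0 ≤ r := fun i => mul_nonneg ht0.le (div_nonneg measureReal_nonneg (hb.fmom_pos i).le)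
    have hA : ∀ i, phi s (fun _ => R) i = R / (1 + R * s i) := fun i => by
      simp [phi, mul_comm]
    have hv : ∀ i, t ≤ R / (1 + R * s i) * r i / 1 ∧ R / (1 + R * s i) * r i ≤ t * Λ := by
      intro i
      obtain ⟨hl, -, hu⟩ := hmj i
      have hm := hb.fmom_pos i
      have hden : 0 < 1 + R * s i := by have := mul_nonneg hR.le (hs i); linarith
      rw [div_one, ← hA i]
      set a := phi s fun _ => δ with ha
      set A := phi s fun _ => R with hAdef
      have hA0 : ∀ k, 0 ≤ A k := fun k => phi_nonneg hs (fun _ => hR.le) k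
      have ha0 : ∀ k, 0 ≤ a k := fun k => phi_nonneg hs (fun _ => hδ.le) k
      have hkey : ∀ k, A k ≤ R / δ * a k := fun k => by
        simp only [hAdef, ha, phi]
        have h1 := den_pos hs (x := fun _ => δ) (fun _ => hδ.le) k
        have h2 : 1 + s k * δ ≤ 1 + s k * R :=
          add_le_add le_rfl (mul_le_mul_of_nonneg_left hδR (hs k))
        rw [div_mul_div_comm, mul_comm R δ, ← div_mul_div_comm δ δ, div_self hδ.ne', one_mul]
        exact div_le_div_of_nonneg_left hR.le h1 h2
      constructor
      · simp only [hr]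
        rw [mul_left_comm]
        refine le_mul_of_one_le_right ht0.le ?_
        rw [← mul_div_assoc, one_le_div hm]
        exact hu
      · simp only [hr]
        rw [mul_left_comm]
        refine mul_le_mul_of_nonneg_left ?_ ht0.le
        rw [← mul_div_assoc, div_le_iff₀ hm]
        calc A i * volume.real K₁ ≤ (R / δ * a i) * ∏ k, (R / δ * a k) := by
              refine mul_le_mul (hkey i) (hVu.trans (Finset.prod_le_prod (fun k _ => hA0 k)
                fun k _ => hkey k)) measureReal_nonneg ?_
              exact mul_nonneg (div_nonneg hR.le hδ.le) (ha0 i)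
          _ = Λ * ((∏ k, a k) * (a i / 2)) := by
              rw [Finset.prod_mul_distrib, Finset.prod_const, Finset.card_univ, Fintype.card_fin,
                hΛ, pow_succ]
              ring
          _ ≤ Λ * fmom K₁ i := mul_le_mul_of_nonneg_left hl (by linarith)
    have hlog : ∀ i, τ + t / 2 ≤ Real.log (1 + R * (s i + r i)) ∧
        Real.log (1 + R * (s i + r i)) ≤ 2 * Λ * (τ + t / 2) := by
      intro i
      have hden : 0 < 1 + R * s i := by have := mul_nonneg hR.le (hs i); linarith
      set v := R / (1 + R * s i) * r i with hvdef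
      have e : 1 + R * (s i + r i) = (1 + R * s i) * (1 + v) := by
        rw [hvdef]; field_simp; ring
      obtain ⟨h1, h2⟩ := hv i
      rw [div_one] at h1
      have hv0 : 0 < 1 + v := by linarith
      rw [e, Real.log_mul hden.ne' hv0.ne']
      constructor
      · have h3 := Real.one_sub_inv_le_log_of_pos (by linarith : (0 : ℝ) < 1 + t)
        have h4 : Real.log (1 + t) ≤ Real.log (1 + v) :=
          Real.log_le_log (by linarith) (by linarith)
        have h5 : t / 2 ≤ 1 - (1 + t)⁻¹ := by
          rw [← one_div, one_sub_div (by linarith), div_le_div_iff₀ two_pos (by linarith)]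
          nlinarith
        linarith [hlo i]
      · have h3 := Real.log_le_sub_one_of_pos hv0
        linarith [hup i]
    have hsr : 0 ≤ s + r := add_nonneg hs hr0
    have hmem' : (τ + t / 2, s + r) ∈ T := by
      refine ⟨⟨⟨by linarith [hτ.1], by linarith⟩, hsr, fun i => ?_⟩, ?_⟩
      · have h1 := (hlog i).2
        have h2 : 1 + R * (s i + r i) ≤ Real.exp (2 * Λ * M) := by
          have hpos : 0 < 1 + R * (s i + r i) := by
            have := mul_nonneg hR.le (hsr i); simp only [Pi.add_apply] at this; linarith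
          rw [← Real.log_le_iff_le_exp hpos]
          exact h1.trans (mul_le_mul_of_nonneg_left (by linarith) (by linarith))
        simp only [Pi.add_apply, hB, le_div_iff₀ hR]
        linarith
      · refine ⟨fun i => ?_, fun i => ?_, ?_⟩
        · have := (hlog i).1
          have h0 := abs_of_nonneg (hsr i)
          simp only [Pi.add_apply] at h0
          simp only [Pi.zero_apply, hσ, Pi.add_apply, h0]; linarith
        · have := (hlog i).2
          have h0 := abs_of_nonneg (hsr i)
          simp only [Pi.add_apply] at h0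
          simp only [Pi.zero_apply, hσ, Pi.add_apply, h0]; linarith
        · simp only [mem_Ici, sub_nonneg]
          rw [← h.image_image hs]
          have h4 : C * t ^ 2 ≤ ε * (t / 2) := by
            rw [sq, ← mul_assoc, mul_div_assoc']
            rw [le_div_iff₀ two_pos]
            nlinarith
          linarith
    have := hmax hmem'
    simp only [mem_ofPred_eq] at this
    linarith
  subst hτM
  obtain ⟨hVl, -, hmj⟩ := h.flow_bounds hδ hδR hin hout hs
  have hN' : ∀ i, N ≤ s i := fun i => by
    have := hlo i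
    rw [Real.log_le_log_iff (by positivity) (by have := mul_nonneg hR.le (hs i); linarith)] at this
    exact le_of_mul_le_mul_left (by linarith) hR
  set a := phi s fun _ => δ with ha
  set A := phi s fun _ => R with hA
  have ha0 : ∀ i, 0 < a i := fun i => div_pos hδ (den_pos hs (x := fun _ => δ) (fun _ => hδ.le) i)
  have hA0 : ∀ i, 0 < A i := fun i => div_pos hR (den_pos hs (x := fun _ => R) (fun _ => hR.le) i)
  have hratio : ∀ i, Real.log (A i) - 1 / (δ * N) ≤ Real.log (a i) := fun i => by
    have h1 := Real.log_le_sub_one_of_pos (div_pos (hA0 i) (ha0 i))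
    rw [Real.log_div (hA0 i).ne' (ha0 i).ne'] at h1
    have hsi : 0 < s i := by linarith [hN' i]
    have h2 : A i / a i - 1 ≤ 1 / (δ * N) := by
      refine le_trans ?_ (one_div_le_one_div_of_le (by positivity) (mul_le_mul_of_nonneg_left (hN' i) hδ.le))
      have h3 := den_pos hs (x := fun _ => R) (fun _ => hR.le) i
      simp only [hA, ha, phi]
      rw [div_div_div_eq, div_sub_one (by positivity), div_le_div_iff₀ (by positivity) (by positivity)]
      nlinarith [mul_pos hδ hR, mul_pos (mul_pos hδ hR) hsi]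
    linarith
  have hVb : ∑ i, Real.log (a i) ≤ Real.log (volume.real (phi s '' K)) := by
    rw [← Real.log_prod fun i _ => (ha0 i).ne']
    exact Real.log_le_log (Finset.prod_pos fun i _ => ha0 i) hVl
  have hmb : ∀ j, Real.log (fmom (phi s '' K) j)
      ≤ (∑ i, Real.log (A i)) + (Real.log (A j) - Real.log 2) := fun j => by
    refine (Real.log_le_log ((h.image_phi hs).fmom_pos j) (hmj j).2.1).trans (le_of_eq ?_)
    rw [Real.log_mul (Finset.prod_pos fun i _ => hA0 i).ne' (div_pos (hA0 j) two_pos).ne',
      Real.log_prod fun i _ => (hA0 i).ne', Real.log_div (hA0 j).ne' two_ne_zero]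
  have h1 := Finset.sum_le_sum fun j (_ : j ∈ Finset.univ) => hmb j
  have h2 := Finset.sum_le_sum fun j (_ : j ∈ Finset.univ) => hratio j
  simp only [Finset.sum_add_distrib, Finset.sum_sub_distrib, Finset.sum_const, Finset.card_univ,
    Fintype.card_fin, nsmul_eq_mul] at h1 h2
  have h3 := mul_le_mul_of_nonneg_left (h2.trans_eq rfl) (show (0 : ℝ) ≤ n + 1 by positivity)
  have h4 := mul_le_mul_of_nonneg_left hVb (show (0 : ℝ) ≤ n + 1 by positivity)
  have h5 : ((n : ℝ) + 1) * (n * (1 / (δ * N))) ≤ η / 2 := by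
    rw [← mul_assoc, mul_one_div, div_le_div_iff₀ (by positivity) two_pos]
    have : 2 * ((n : ℝ) + 1) * (n + 1) ≤ δ * η * N := by
      rw [hN, mul_add (δ * η), mul_div_cancel₀ _ (by positivity : δ * η ≠ 0)]
      have : 0 < δ * η := by positivity
      linarith
    nlinarith
  have h6 : ε * M = η / 2 := by rw [hε]; field_simp
  simp only [gfun] at hg ⊢
  linarith

end OrthBody

end Vale.P254.U
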