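import Mathlib
import Vale.Agent.P254.Block
import Vale.Agent.P254.U.Flow

/-! Lemma Q gives the strong isotropic constant conjecture for all unconditional bodies. -/

namespace Vale.P254.U

open MeasureTheory Set Filter Matrix

variable {n k : ℕ}

/-- A compact convex set invariant under coordinate sign changes. -/
structure UncBody (K : Set (Fin n → ℝ)) : Prop where
  compact : IsCompact K
  convex : Convex ℝ K
  flip : ∀ i, ∀ x ∈ K, Function.update x i (-x i) ∈ K

namespace UncBody

theorem scale_mem {K : Set (Fin n → ℝ)} (h : UncBody K) {x : Fin n → ℝ} (hx : x ∈ K)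
    (c : Fin n → ℝ) (hc : ∀ i, |c i| ≤ 1) : (fun i => c i * x i) ∈ K := by
  suffices H : ∀ s : Finset (Fin n), (fun i => if i ∈ s then c i * x i else x i) ∈ K by
    simpa using H Finset.univ
  intro s
  induction s using Finset.induction_on with
  | empty => simpa using hx
  | insert a s ha ih =>
    set y : Fin n → ℝ := fun i => if i ∈ s then c i * x i else x i with hy
    obtain ⟨h1, h2⟩ := abs_le.1 (hc a)
    have := h.convex ih (h.flip a y ih) (show 0 ≤ (1 + c a) / 2 by linarith)
      (show 0 ≤ (1 - c a) / 2 by linarith) (by ring)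
    convert this using 1
    funext i
    rcases eq_or_ne i a with rfl | hia
    · simp [hy, ha]; ring
    · simp [hia, hy]
      split_ifs <;> ring

theorem down_abs {K : Set (Fin n → ℝ)} (h : UncBody K) {x : Fin n → ℝ} (hx : x ∈ K)
    {y : Fin n → ℝ} (hy : ∀ i, |y i| ≤ |x i|) : y ∈ K := by
  have := h.scale_mem hx (fun i => y i / x i) fun i => by
    rw [abs_div]; exact div_le_one_of_le₀ (hy i) (abs_nonneg _)
  convert this using 1
  funext i
  rcases eq_or_ne (x i) 0 with h0 | h0
  · have := hy i; rw [h0, abs_zero, abs_nonpos_iff] at this; simp [h0, this]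
  · rw [div_mul_cancel₀ _ h0]

theorem sl {K : Set (Fin (k + 1) → ℝ)} (h : UncBody K) (t : ℝ) : UncBody (sl K t) where
  compact := by
    refine (h.compact.image (f := fun x i => x (Fin.succ i)) (by fun_prop)).of_isClosed_subset
      (h.compact.isClosed.preimage (continuous_cons t)) fun y hy => ?_
    exact ⟨_, hy, by simp⟩
  convex := by
    intro x hx y hy a b ha hb hab
    have := h.convex hx hy ha hb hab
    show Fin.cons t (a • x + b • y) ∈ K
    convert this using 1
    funext i
    refine Fin.cases ?_ (fun j => ?_) i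
    · simp [← add_mul, hab]
    · simp
  flip := fun i x hx => by
    have := h.flip i.succ _ hx
    simpa [Vale.P254.sl, Fin.cons_update] using this

theorem sl_subset {K : Set (Fin (k + 1) → ℝ)} (h : UncBody K) {t s : ℝ} (hts : |t| ≤ |s|) :
    Vale.P254.sl K s ⊆ Vale.P254.sl K t := fun y hy =>
  h.down_abs hy fun i => by refine Fin.cases ?_ (fun j => ?_) i <;> simp [hts]

theorem profile {K : Set (Fin (k + 1) → ℝ)} (h : UncBody K) :
    ∃ R, Profile k (slVol K) R := by
  obtain ⟨R, hR⟩ := h.compact.isBounded.exists_norm_le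
  have hb : ∀ t y, Fin.cons t y ∈ K → |t| ≤ R := fun t y hy => by
    have h1 : ‖(Fin.cons t y : Fin (k + 1) → ℝ) 0‖ ≤ ‖(Fin.cons t y : Fin (k + 1) → ℝ)‖ :=
      norm_le_pi_norm _ 0
    rw [Fin.cons_zero, Real.norm_eq_abs] at h1
    exact h1.trans (hR _ hy)
  refine ⟨R, ⟨measurable_slVol h.compact.measurableSet, fun t => measureReal_nonneg, ?_, ?_,
    ?_, ?_⟩⟩
  · intro t ht s hs hts
    refine measureReal_mono (h.sl_subset ?_) (h.sl t).compact.measure_lt_top.ne
    rwa [abs_of_nonneg (mem_Ici.1 ht), abs_of_nonneg (mem_Ici.1 hs)]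
  · intro t ht
    have : Vale.P254.sl K t = ∅ := eq_empty_of_forall_notMem fun y hy =>
      absurd ((le_abs_self t).trans (hb t y hy)) (not_le.2 ht)
    simp [slVol, this]
  · rintro rfl t ht
    have hne : (Vale.P254.sl K t).Nonempty := by
      rw [nonempty_iff_ne_empty]; rintro he; simp [slVol, he] at ht
    have : Vale.P254.sl K t = univ := eq_univ_of_forall fun y => by
      obtain ⟨z, hz⟩ := hne; rwa [Subsingleton.elim y z]
    simp [slVol, this, measureReal_def, volume_pi, Measure.pi_empty_univ]
  · intro t s r _ _ hr0 hr1 c d hc hd hct hds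
    have hzero : ∀ {u c : ℝ}, 0 < c → c ^ k ≤ slVol K u → (0 : Fin k → ℝ) ∈ Vale.P254.sl K u := by
      intro u c hc hcu
      obtain ⟨x, hx⟩ : (Vale.P254.sl K u).Nonempty := by
        rw [nonempty_iff_ne_empty]
        rintro he
        simp [slVol, he] at hcu
        exact absurd hcu (not_le.2 (pow_pos hc k))
      exact (h.sl u).down_abs hx fun i => by simp
    refine brunn_minkowski (h.sl t).compact (h.sl s).compact (h.sl t).convex (h.sl s).convex
      (hzero hc hct) (hzero hd hds) (h.sl _).compact hc hd (by linarith) hr0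
      (by linarith) hct hds fun a ha b hb => ?_
    have := h.convex ha hb (show 0 ≤ 1 - r by linarith) hr0 (by ring)
    show Fin.cons _ _ ∈ K
    convert this using 1
    funext i
    refine Fin.cases ?_ (fun j => ?_) i <;> simp

theorem mom_eq {K : Set (Fin (k + 1) → ℝ)} (h : UncBody K) (p : ℕ) :
    ∫ x in K, |x 0| ^ p = 2 * mom (slVol K) p := by
  rw [(integral_slice h.compact (f := fun x => |x 0| ^ p) (by fun_prop)).2, mom,
    ← integral_comp_abs]
  refine integral_congr_ae (Eventually.of_forall fun t => ?_)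
  simp only [Fin.cons_zero, setIntegral_const, smul_eq_mul, slVol]
  rw [(h.sl_subset (t := t) (s := |t|) (by simp)).antisymm (h.sl_subset (by simp))]
  ring

theorem mom_two_le_zero {K : Set (Fin (k + 1) → ℝ)} (h : UncBody K) :
    volume.real K * (∫ x in K, x 0 ^ 2) * (k + 3) ≤ 2 * (k + 2) * (∫ x in K, |x 0|) ^ 2 := by
  obtain ⟨R, hp⟩ := h.profile
  have hB := hp.mom_two_le
  have h0 := h.mom_eq 0
  have h1 := h.mom_eq 1
  have h2 := h.mom_eq 2
  simp only [pow_zero, setIntegral_const, smul_eq_mul, mul_one, pow_one, sq_abs] at h0 h1 h2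
  rw [h0, h1, h2, show mom (slVol K) 0 = ∫ t in Ioi 0, slVol K t by simp [mom]]
  linarith

theorem mom_two_le {K : Set (Fin n → ℝ)} (h : UncBody K) (i : Fin n) :
    volume.real K * (∫ x in K, x i ^ 2) * (n + 2) ≤ 2 * (n + 1) * (∫ x in K, |x i|) ^ 2 := by
  obtain ⟨k, rfl⟩ : ∃ k, n = k + 1 := ⟨n - 1, by have := i.isLt; omega⟩
  set σ := Equiv.swap i 0 with hσ
  set e := MeasurableEquiv.piCongrLeft (fun _ : Fin (k + 1) => ℝ) σ with he
  have hp : MeasurePreserving e volume volume :=
    volume_measurePreserving_piCongrLeft (fun _ : Fin (k + 1) => ℝ) σ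
  have hev : ∀ x : Fin (k + 1) → ℝ, e x = x ∘ σ := fun x => by
    funext l
    have := Equiv.piCongrLeft_apply_apply (fun _ : Fin (k + 1) => ℝ) σ x (σ l)
    simpa [he, hσ, MeasurableEquiv.coe_piCongrLeft] using this
  have hpre : e ⁻¹' K = (fun x : Fin (k + 1) → ℝ => x ∘ σ) ⁻¹' K := by
    ext x; simp [hev]
  have hK' : UncBody (e ⁻¹' K) := by
    refine ⟨?_, ?_, fun j x hx => ?_⟩
    · have : e ⁻¹' K = (fun x : Fin (k + 1) → ℝ => x ∘ σ) '' K := by
        ext x
        rw [hpre]
        refine ⟨fun hx => ⟨x ∘ σ, hx, by funext l; simp [hσ]⟩, ?_⟩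
        rintro ⟨y, hy, rfl⟩
        simpa [Function.comp_assoc, hσ, Function.comp_def] using hy
      rw [this]
      exact h.compact.image (by fun_prop)
    · rw [hpre]
      exact h.convex.is_linear_preimage ⟨fun x y => rfl, fun c x => rfl⟩
    · rw [hpre, mem_preimage] at hx ⊢
      have := h.flip (σ j) _ hx
      convert this using 1
      funext l
      simp [Function.update_apply, hσ, Equiv.swap_apply_eq_iff]
  have h0 := hK'.mom_two_le_zero
  have hv : volume.real (e ⁻¹' K) = volume.real K := by
    rw [measureReal_def, measureReal_def, hp.measure_preimage h.compact.measurableSet.nullMeasurableSet]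
  have hint : ∀ g : ℝ → ℝ, ∫ x in e ⁻¹' K, g (x 0) = ∫ x in K, g (x i) := fun g => by
    rw [← hp.setIntegral_preimage_emb e.measurableEmbedding (fun x => g (x i)) K]
    simp [hev, hσ]
  rw [hv, hint (fun z => z ^ 2), hint fun z => |z|] at h0
  push_cast
  linarith

/-- Reflection into the orthant. -/
theorem integral_orth {K : Set (Fin n → ℝ)} (h : UncBody K) {g : (Fin n → ℝ) → ℝ}
    (hg : Continuous g) (hinv : ∀ i x, g (Function.update x i (-x i)) = g x) :
    ∫ x in K, g x = 2 ^ n * ∫ x in K ∩ Ici 0, g x := by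
  suffices H : ∀ s : Finset (Fin n),
      ∫ x in K, g x = 2 ^ s.card * ∫ x in K ∩ {x | ∀ i ∈ s, 0 ≤ x i}, g x by
    have := H Finset.univ
    simpa [Set.Ici, Pi.le_def] using this
  intro s
  induction s using Finset.induction_on with
  | empty => simp
  | insert a s ha ih =>
    set P := K ∩ {x : Fin n → ℝ | ∀ i ∈ s, 0 ≤ x i} with hP
    set H := {x : Fin n → ℝ | 0 ≤ x a} with hH
    have hHm : MeasurableSet H := measurableSet_le measurable_const (measurable_pi_apply a)
    have hgi : IntegrableOn g P :=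
      (hg.continuousOn.integrableOn_compact h.compact).mono_set inter_subset_left
    set T := fun (x : Fin n → ℝ) (j : Fin n) => if j = a then -x j else x j with hT
    have hTm : MeasurePreserving T volume volume := by
      refine volume_preserving_pi (f := fun j t => if j = a then -t else t) fun j => ?_
      by_cases hj : j = a
      · simp only [hj, if_true]; exact Measure.measurePreserving_neg volume
      · simp only [hj, if_false]; exact MeasurePreserving.id volume
    have hTu : ∀ x, T x = Function.update x a (-x a) := fun x => by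
      funext j; by_cases hj : j = a <;> simp [hT, hj]
    have hinv' : Function.Involutive T := fun x => by
      funext j; by_cases hj : j = a <;> simp [hT, hj]
    let Te : (Fin n → ℝ) ≃ᵐ (Fin n → ℝ) :=
      ⟨hinv'.toPerm T, hTm.measurable, hTm.measurable⟩
    have hPT : ∀ x, T x ∈ P ↔ x ∈ P := by
      have h1 : ∀ x, x ∈ P → T x ∈ P := fun x hx => ⟨by rw [hTu]; exact h.flip a x hx.1,
        fun i hi => by
          have : i ≠ a := fun e => ha (e ▸ hi)
          simp [hT, this]; exact hx.2 i hi⟩
      exact fun x => ⟨fun hx => hinv' x ▸ h1 _ hx, h1 x⟩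
    have hflip : ∫ x in P \ H, g x = ∫ x in P ∩ H, g x := by
      rw [← hTm.setIntegral_preimage_emb Te.measurableEmbedding g (P \ H)]
      simp only [hTu, hinv]
      refine setIntegral_congr_set ?_
      have hnull : ∀ᵐ x : Fin n → ℝ, x a ≠ 0 := by
        rw [ae_iff, show {x : Fin n → ℝ | ¬x a ≠ 0} = {x | x a = 0} by ext; simp, volume_pi]
        exact Measure.pi_hyperplane _ a 0
      filter_upwards [hnull] with x hx
      refine propext ?_
      show T x ∈ P \ H ↔ x ∈ P ∩ H
      rw [Set.mem_sdiff, hPT, mem_inter_iff]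
      simp only [hH, mem_ofPred_eq, hT, if_true, not_le]
      exact and_congr_right fun _ => ⟨fun h => show 0 ≤ x a by linarith,
        fun h => neg_lt_zero.2 (lt_of_le_of_ne (show 0 ≤ x a from h) (Ne.symm hx))⟩
    rw [ih, Finset.card_insert_of_notMem ha, pow_succ, mul_assoc,
      ← integral_inter_add_sdiff hHm hgi, hflip, ← two_mul]
    have e : K ∩ {x | ∀ i ∈ insert a s, 0 ≤ x i} = P ∩ H := by
      ext x; simp [hP, hH]; tauto
    rw [e]

theorem orthBody {K : Set (Fin n → ℝ)} (h : UncBody K) (hint : (interior K).Nonempty) :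
    OrthBody (K ∩ Ici 0) := by
  refine ⟨h.compact.inter_right isClosed_Ici, h.convex.inter (convex_Ici 0), fun x hx => hx.2,
    fun x hx y hy hyx => ⟨h.down_abs hx.1 fun i => ?_, hy⟩, ?_⟩
  · rw [abs_of_nonneg (hy i), abs_of_nonneg (hx.2 i)]
    exact hyx i
  obtain ⟨x₀, hx₀⟩ := hint
  obtain ⟨r, hr, hball⟩ := Metric.mem_nhds_iff.1 (mem_interior_iff_mem_nhds.1 hx₀)
  set y : Fin n → ℝ := fun i => if 0 ≤ x₀ i then x₀ i + r / 2 else x₀ i - r / 2 with hy
  have hyK : y ∈ K := hball <| by
    rw [Metric.mem_ball, dist_eq_norm]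
    refine ((pi_norm_le_iff_of_nonneg (by linarith)).2 fun i => ?_).trans_lt (half_lt_self hr)
    simp only [hy, Pi.sub_apply, Real.norm_eq_abs]
    split_ifs <;> simp [abs_le] <;> linarith
  have hy0 : ∀ i, r / 2 ≤ |y i| := fun i => by
    simp only [hy]
    split_ifs with h0
    · exact (by linarith : r / 2 ≤ x₀ i + r / 2).trans (le_abs_self _)
    · exact (by linarith : r / 2 ≤ -(x₀ i - r / 2)).trans (neg_le_abs _)
  have hsub : Icc (0 : Fin n → ℝ) (fun _ => r / 2) ⊆ K ∩ Ici 0 := fun z hz =>
    ⟨h.down_abs hyK fun i => by rw [abs_of_nonneg (hz.1 i)]; exact (hz.2 i).trans (hy0 i), hz.1⟩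
  refine Set.Nonempty.mono (interior_mono hsub) ?_
  rw [← pi_univ_Icc, interior_pi_set finite_univ]
  refine univ_pi_nonempty_iff.2 fun i => ?_
  rw [interior_Icc]
  exact nonempty_Ioo.2 (by simpa using hr)

/-- The cube is extremal for the product of the first absolute moments. -/
theorem prod_moment_le {K : Set (Fin n → ℝ)} (h : UncBody K) (hint : (interior K).Nonempty)
    (hQ : LemmaQ n) :
    4 ^ n * ∏ i, (∫ x in K, |x i|) ≤ volume.real K ^ (n + 1) := by
  set P := K ∩ Ici 0 with hP
  have hb := h.orthBody hint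
  have hV : volume.real K = 2 ^ n * volume.real P := by
    have := h.integral_orth (g := fun _ => 1) continuous_const fun _ _ => rfl
    simpa using this
  have hM : ∀ i, ∫ x in K, |x i| = 2 ^ n * fmom P i := fun i => by
    rw [h.integral_orth (by fun_prop) fun j x => by
      rcases eq_or_ne i j with rfl | hij <;> simp [*]]
    congr 1
    exact setIntegral_congr_fun hb.measurableSet fun x hx => abs_of_nonneg (hx.2 i)
  have hg := hb.gfun_ge hQ
  have hVP := hb.volume_pos
  have hmp := hb.fmom_pos
  have hkey : (2 : ℝ) ^ n * ∏ i, fmom P i ≤ volume.real P ^ (n + 1) := by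
    have h0 : 0 < ∏ i, fmom P i := Finset.prod_pos fun i _ => hmp i
    rw [← Real.log_le_log_iff (by positivity) (by positivity),
      Real.log_mul (by positivity) h0.ne', Real.log_pow, Real.log_pow,
      Real.log_prod fun i _ => (hmp i).ne']
    simp only [gfun] at hg
    push_cast
    linarith
  simp only [hM, hV, Finset.prod_mul_distrib, Finset.prod_const, Finset.card_univ, Fintype.card_fin]
  calc (4 : ℝ) ^ n * ((2 ^ n) ^ n * ∏ i, fmom P i)
      = 2 ^ n * (2 ^ n) ^ n * (2 ^ n * ∏ i, fmom P i) := by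
        rw [show (4 : ℝ) ^ n = 2 ^ n * 2 ^ n by rw [← mul_pow]; norm_num]; ring
    _ ≤ 2 ^ n * (2 ^ n) ^ n * volume.real P ^ (n + 1) :=
        mul_le_mul_of_nonneg_left hkey (by positivity)
    _ = _ := by rw [mul_pow (2 ^ n : ℝ), pow_succ (2 ^ n : ℝ)]; ring

/-- The ratio bound. -/
theorem ratio_le {K : Set (Fin n → ℝ)} (h : UncBody K) (hint : (interior K).Nonempty)
    (hQ : LemmaQ n) :
    0 ≤ (covMat K).det / volume.real K ^ 2 ∧
      (covMat K).det / volume.real K ^ 2 ≤ (((n : ℝ) + 1) / (8 * (n + 2))) ^ n := by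
  have hV : 0 < volume.real K :=
    ENNReal.toReal_pos (Measure.measure_pos_of_nonempty_interior _ hint).ne'
      h.compact.measure_lt_top.ne
  have hodd : ∀ (i : Fin n) (g : (Fin n → ℝ) → ℝ),
      (∀ x, g (Function.update x i (-x i)) = -g x) → ∫ x in K, g x = 0 := by
    intro i g hg
    set T := fun (x : Fin n → ℝ) (j : Fin n) => if j = i then -x j else x j with hT
    have hTm : MeasurePreserving T volume volume := by
      refine volume_preserving_pi (f := fun j t => if j = i then -t else t) fun j => ?_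
      by_cases hj : j = i
      · simp only [hj, if_true]; exact Measure.measurePreserving_neg volume
      · simp only [hj, if_false]; exact MeasurePreserving.id volume
    have hTu : ∀ x, T x = Function.update x i (-x i) := fun x => by
      funext j; by_cases hj : j = i <;> simp [hT, hj]
    have hinv : Function.Involutive T := fun x => by
      funext j; by_cases hj : j = i <;> simp [hT, hj]
    let Te : (Fin n → ℝ) ≃ᵐ (Fin n → ℝ) :=
      ⟨hinv.toPerm T, hTm.measurable, hTm.measurable⟩
    have hTK : T ⁻¹' K = K := by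
      ext x
      rw [mem_preimage]
      refine ⟨fun hx => ?_, fun hx => by rw [hTu]; exact h.flip i x hx⟩
      have := h.flip i _ hx
      rwa [← hTu, hinv x] at this
    have h' := hTm.setIntegral_preimage_emb Te.measurableEmbedding g K
    rw [hTK] at h'
    simp only [hTu, hg, integral_neg] at h'
    linarith
  have hcen : ∀ i, centroid K i = 0 := fun i => by
    rw [centroid, hodd i _ fun x => by simp, zero_div]
  set q : Fin n → ℝ := fun i => (∫ x in K, x i ^ 2) / volume.real K with hq
  have hcov : covMat K = Matrix.diagonal q := by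
    ext i j
    simp only [covMat, Matrix.of_apply, hcen, sub_zero]
    rcases eq_or_ne i j with rfl | hij
    · simp [q, sq]
    · rw [Matrix.diagonal_apply_ne _ hij, hodd i _ fun x => by simp [hij.symm], zero_div]
  have hq0 : ∀ i, 0 ≤ q i := fun i => div_nonneg
    (setIntegral_nonneg h.compact.measurableSet fun x _ => sq_nonneg _) measureReal_nonneg
  rw [hcov, Matrix.det_diagonal]
  refine ⟨div_nonneg (Finset.prod_nonneg fun i _ => hq0 i) (sq_nonneg _), ?_⟩
  set V := volume.real K with hVdef
  obtain ⟨c, hc⟩ : ∃ c : ℝ, c = 2 * (n + 1) / ((n : ℝ) + 2) := ⟨_, rfl⟩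
  have hc0 : 0 ≤ c := by rw [hc]; positivity
  have hle : ∀ i, q i ≤ c * (∫ x in K, |x i|) ^ 2 / V ^ 2 := fun i => by
    have h1 := h.mom_two_le i
    rw [hq, hc, div_mul_eq_mul_div, div_div, div_le_div_iff₀ hV (by positivity)]
    calc (∫ x in K, x i ^ 2) * (((n : ℝ) + 2) * V ^ 2)
        = V * (∫ x in K, x i ^ 2) * (n + 2) * V := by ring
      _ ≤ _ := mul_le_mul_of_nonneg_right h1 hV.le
  have hm0 : ∀ i, 0 ≤ ∫ x in K, |x i| := fun i =>
    setIntegral_nonneg h.compact.measurableSet fun x _ => abs_nonneg _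
  refine (div_le_div_of_nonneg_right (Finset.prod_le_prod (fun i _ => hq0 i) fun i _ => hle i)
    (sq_nonneg _)).trans ?_
  have h2 := pow_le_pow_left₀ (mul_nonneg (by positivity) (Finset.prod_nonneg fun i _ => hm0 i))
    (h.prod_moment_le hint hQ) 2
  rw [Finset.prod_div_distrib, Finset.prod_mul_distrib, Finset.prod_pow, Finset.prod_const,
    Finset.prod_const, Finset.card_univ, Fintype.card_fin]
  rw [show ((n : ℝ) + 1) / (8 * (n + 2)) = c / 16 by rw [hc]; field_simp; ring, div_pow,
    div_div, div_le_div_iff₀ (by positivity) (by positivity)]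
  calc c ^ n * (∏ i, ∫ x in K, |x i|) ^ 2 * 16 ^ n
      = c ^ n * (4 ^ n * ∏ i, ∫ x in K, |x i|) ^ 2 := by
        rw [show (16 : ℝ) ^ n = (4 ^ n) ^ 2 by rw [← pow_mul, mul_comm n 2, pow_mul]; norm_num]
        ring
    _ ≤ c ^ n * (V ^ (n + 1)) ^ 2 := mul_le_mul_of_nonneg_left h2 (by positivity)
    _ = _ := by ring

end UncBody

/-- Lemma Q gives the conjecture for every affine image of an unconditional body. -/
theorem unconditional_lt_simplex {n : ℕ} (hn : 2 ≤ n) (hQ : LemmaQ n) {K : Set (Fin n → ℝ)}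
    (hKc : IsCompact K) (hKv : Convex ℝ K)
    (hflip : ∀ i, ∀ x ∈ K, Function.update x i (-x i) ∈ K) (hint : (interior K).Nonempty)
    (A : (Fin n → ℝ) ≃ᵃ[ℝ] (Fin n → ℝ)) (p : Fin (n + 1) → Fin n → ℝ)
    (hp : AffineIndependent ℝ p) :
    isoConst (A '' K) < isoConst (convexHull ℝ (Set.range p)) := by
  have h : UncBody K := ⟨hKc, hKv, hflip⟩
  have hV : 0 < volume.real K :=
    ENNReal.toReal_pos (Measure.measure_pos_of_nonempty_interior _ hint).ne' hKc.measure_lt_top.ne
  obtain ⟨h0, hle⟩ := h.ratio_le hint hQ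
  rw [affine_isoConst A hKc hV, simplex_isoConst p hp, isoConst]
  exact Real.rpow_lt_rpow h0 (hle.trans_lt (bound_lt_simplex hn)) (by positivity)

end Vale.P254.U
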